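import Vale.Agent.P063.H868.Final

/-!
# P063: the Friedgut–Kalai conjecture for graphs and for `r`-uniform hypergraphs, and the threshold
width of multipartite properties with vertex classes of different sizes
-/

set_option autoImplicit false

namespace Vale.Agent.Results.P063.MultipartiteWidth

open Vale.Agent.P063.H868

theorem result :
    -- (1) Q1: graph properties, upper bound and matching lower bound
    (∀ ε : ℝ, 0 < ε → ε < 1 / 2 → ∃ c C : ℝ, 0 < c ∧ 0 < C ∧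
      (∀ n : ℕ, 2 ≤ n → ∀ P : Set (SimpleGraph (Fin n)), GraphProperty P →
        width ε (graphProb P) ≤ C / Real.log n ^ 2) ∧
      ∃ n0 : ℕ, ∀ n : ℕ, n0 ≤ n → ∃ P : Set (SimpleGraph (Fin n)), GraphProperty P ∧
        c / Real.log n ^ 2 ≤ width ε (graphProb P)) ∧
    -- (2) Q2: `r`-uniform hypergraph properties, upper bound and matching lower bound
    (∀ r : ℕ, 2 ≤ r → ∀ ε : ℝ, 0 < ε → ε < 1 / 2 → ∃ c C : ℝ, 0 < c ∧ 0 < C ∧
      (∀ n : ℕ, r ≤ n → ∀ P : Set (Finset {e : Finset (Fin n) // e.card = r}),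
        HypergraphProperty P →
          width ε (prob P) ≤ C * Real.log n ^ (-((r : ℝ) / ((r : ℝ) - 1)))) ∧
      ∃ n0 : ℕ, ∀ n : ℕ, n0 ≤ n → ∃ P : Set (Finset {e : Finset (Fin n) // e.card = r}),
        HypergraphProperty P ∧
          c * Real.log n ^ (-((r : ℝ) / ((r : ℝ) - 1))) ≤ width ε (prob P)) ∧
    -- (3) multipartite properties, vertex classes of arbitrary sizes `n i ≥ 2`
    (∀ r : ℕ, 2 ≤ r → ∀ n : Fin r → ℕ, (∀ i, 2 ≤ n i) →
      ∀ P : Set (Finset ((i : Fin r) → Fin (n i))), MultipartiteProperty P →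
      ∀ ε : ℝ, 0 < ε → ε < 1 / 2 →
        width ε (prob P) ≤ 2048 * r * Real.log ((1 - ε) / ε) *
          ((∏ i, Real.log (n i)) ^ (-(1 / ((r : ℝ) - 1))) + ∑ i, (n i : ℝ) ^ (-(1 / 12 : ℝ)))) ∧
    -- (4) the exact order in the range `log (n i) ≤ (∏ log (n j))^(1/(r-1)) ≤ (n i)^(1/12)`
    (∀ r : ℕ, 2 ≤ r → ∀ ε : ℝ, 0 < ε → ε < 1 / 2 → ∃ c C : ℝ, 0 < c ∧ 0 < C ∧
      ∃ n0 : ℕ, ∀ n : Fin r → ℕ,
        (∀ i, n0 ≤ n i ∧ Real.log (n i) ≤ (∏ j, Real.log (n j)) ^ (1 / ((r : ℝ) - 1)) ∧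
          (∏ j, Real.log (n j)) ^ (1 / ((r : ℝ) - 1)) ≤ (n i : ℝ) ^ (1 / 12 : ℝ)) →
        (∀ P : Set (Finset ((i : Fin r) → Fin (n i))), MultipartiteProperty P →
          width ε (prob P) ≤ C * (∏ j, Real.log (n j)) ^ (-(1 / ((r : ℝ) - 1)))) ∧
        ∃ P : Set (Finset ((i : Fin r) → Fin (n i))), MultipartiteProperty P ∧
          c * (∏ j, Real.log (n j)) ^ (-(1 / ((r : ℝ) - 1))) ≤ width ε (prob P)) :=
  ⟨q1, q2, m_upper, m_order⟩

end Vale.Agent.Results.P063.MultipartiteWidth
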