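import Vale.Agent.P063.H601.Uniform
import Vale.Agent.P063.H601.Defs

/-!
# P063: the Friedgut–Kalai threshold-width conjecture, with the exact order of the width jointly
in `n`, `ε` and the location `q = p_{1/2}(P)` of the threshold

`rho r n q = (log (1 / (q (1 - q))) / log n) ^ (r / (r - 1))`.
-/

set_option autoImplicit false

namespace Vale.Agent.Results.P063.SparseWidth

open Vale.Agent.P063 Vale.Agent.P063.H601

theorem result :
    -- (1) the questions as posed (`r = 2`: Q1 with the order of `W_ε(n)`; `r ≥ 3`: Q2)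
    (∀ r : ℕ, 2 ≤ r → ∀ ε : ℝ, 0 < ε → ε < 1 / 2 → ∃ c C : ℝ, 0 < c ∧ 0 < C ∧
      (∀ n : ℕ, r ≤ n → ∀ P : Set (Edge n r → Bool), Admissible P →
        width ε P ≤ C * Real.log n ^ (-((r : ℝ) / ((r : ℝ) - 1)))) ∧
      (∃ n0 : ℕ, ∀ n : ℕ, n0 ≤ n → ∃ P : Set (Edge n r → Bool), Admissible P ∧
        c * Real.log n ^ (-((r : ℝ) / ((r : ℝ) - 1))) ≤ width ε P)) ∧
    (∀ r : ℕ, 2 ≤ r → ∃ c C : ℝ, 0 < c ∧ 0 < C ∧
      -- (2) total influence of every property, monotone or not, with the dependence on `p`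
      (∀ n : ℕ, r ≤ n → ∀ P : Set (Edge n r → Bool), IsProperty P → ∀ p : ℝ, 0 < p → p < 1 →
        mu p P * (1 - mu p P) ≤ C * rho r n p * (p * (1 - p) * totalInfl p P)) ∧
      -- (3) the width in terms of the location of the threshold, uniformly in `ε`
      (∀ n : ℕ, r ≤ n → ∀ P : Set (Edge n r → Bool), Admissible P →
        ∀ ε : ℝ, 0 < ε → ε < 1 / 2 →
          width ε P ≤ C * (critProb (1 / 2) P * (1 - critProb (1 / 2) P))
            * (Real.log ((1 - ε) / ε) * rho r n (critProb (1 / 2) P))) ∧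
      -- (4) optimality of (3) at every scale `t` of `log (1 / q)`, by one property for all `ε`,
      -- and by its dual at the mirrored location `1 - q`
      (∃ n0 : ℕ, ∀ n : ℕ, n0 ≤ n → ∀ t : ℝ, 1 ≤ t → t ≤ Real.log n →
        ∃ P P' : Set (Edge n r → Bool), Admissible P ∧ Admissible P' ∧
          critProb (1 / 2) P' = 1 - critProb (1 / 2) P ∧
          c * t ≤ Real.log (1 / critProb (1 / 2) P) ∧
          Real.log (1 / critProb (1 / 2) P) ≤ C * t ∧
          ∀ ε : ℝ, 0 < ε → ε < 1 / 2 → width ε P' = width ε P ∧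
            c * (critProb (1 / 2) P * (1 - critProb (1 / 2) P))
              * min 1 (Real.log ((1 - ε) / ε) * rho r n (critProb (1 / 2) P)) ≤ width ε P)) := by
  refine ⟨?_, ?_⟩
  · intro r hr ε h0 h1
    obtain ⟨C, hC⟩ := main r hr ε h0 h1
    obtain ⟨c, hc, n0, -, hlow⟩ := lower hr h0 h1
    refine ⟨c, max C 1, hc, lt_max_of_lt_right one_pos, ?_, n0, ?_⟩
    · intro n hn P hP
      refine (hC n hn P hP.1 hP.2.1 hP.2.2.1 hP.2.2.2).trans ?_
      apply mul_le_mul_of_nonneg_right (le_max_left _ _)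
      exact Real.rpow_nonneg (Real.log_natCast_nonneg n) _
    · intro n hn
      obtain ⟨P, h2, h3, h4, h5, h6⟩ := hlow n hn
      exact ⟨P, ⟨h2, h3, h4, h5⟩, h6⟩
  · intro r hr
    obtain ⟨C1, hC1, hinf⟩ := infl_p hr
    obtain ⟨C2, hC2, hwid⟩ := width_unif hr
    obtain ⟨c, C3, hc, hC3, n0, hsc⟩ := scale hr
    refine ⟨c, C1 + C2 + C3, hc, by positivity, ?_, ?_, n0, ?_⟩
    · intro n hrn P hP p h0 h1
      have hn2 : (2:ℝ) ≤ n := by exact_mod_cast (le_trans hr hrn)
      have hl0 : 0 < Real.log n := Real.log_pos (by linarith only [hn2])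
      have hlα0 : 0 < Real.log n ^ ((r : ℝ) / ((r : ℝ) - 1)) := Real.rpow_pos_of_pos hl0 _
      have h2 := hinf n hrn P hP p h0 h1
      have h3 := log_inv_gt h0 h1
      have hT := H291.totalInfl_nonneg (n := n) (r := r) h0.le h1.le P
      have hpp : 0 < p * (1 - p) := mul_pos h0 (by linarith only [h1])
      have hρ : rho r n p = Real.log (1 / (p * (1 - p))) ^ ((r : ℝ) / ((r : ℝ) - 1))
          / Real.log n ^ ((r : ℝ) / ((r : ℝ) - 1)) := by
        unfold rho
        rw [Real.div_rpow (by linarith only [h3]) hl0.le]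
      have hρ0 : 0 ≤ rho r n p :=
        Real.rpow_nonneg (div_nonneg (by linarith only [h3]) hl0.le) _
      have h4 : Real.log n ^ ((r : ℝ) / ((r : ℝ) - 1)) * (mu p P * (1 - mu p P))
          ≤ Real.log n ^ ((r : ℝ) / ((r : ℝ) - 1))
            * (C1 * rho r n p * (p * (1 - p) * totalInfl p P)) := by
        refine h2.trans (le_of_eq ?_)
        rw [hρ]
        field_simp
      refine (le_of_mul_le_mul_left h4 hlα0).trans ?_
      apply mul_le_mul_of_nonneg_right _ (mul_nonneg hpp.le hT)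
      apply mul_le_mul_of_nonneg_right _ hρ0
      linarith only [hC2, hC3]
    · intro n hrn P hP ε h0 h1
      have hn2 : (2:ℝ) ≤ n := by exact_mod_cast (le_trans hr hrn)
      have hl0 : 0 < Real.log n := Real.log_pos (by linarith only [hn2])
      obtain ⟨hq0, hq1, -⟩ := crit_spec hP.2.1 hP.2.2.1 hP.2.2.2
        (by norm_num : (0:ℝ) < 1 / 2) (by norm_num)
      have h3 := log_inv_gt hq0 hq1
      have hρ0 : 0 ≤ rho r n (critProb (1 / 2) P) :=
        Real.rpow_nonneg (div_nonneg (by linarith only [h3]) hl0.le) _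
      have hA0 : 0 ≤ Real.log ((1 - ε) / ε) := by
        apply Real.log_nonneg
        rw [le_div_iff₀ h0]
        linarith only [h1]
      have hqq : 0 ≤ critProb (1 / 2) P * (1 - critProb (1 / 2) P) :=
        mul_nonneg hq0.le (by linarith only [hq1])
      have h4 : width ε P ≤ C2 * (critProb (1 / 2) P * (1 - critProb (1 / 2) P))
          * (Real.log ((1 - ε) / ε) * rho r n (critProb (1 / 2) P)) := by
        rw [mul_assoc]
        exact hwid n hrn P hP.1 hP.2.1 hP.2.2.1 hP.2.2.2 ε h0 h1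
      refine h4.trans ?_
      apply mul_le_mul_of_nonneg_right _ (mul_nonneg hA0 hρ0)
      apply mul_le_mul_of_nonneg_right _ hqq
      linarith only [hC1, hC3]
    · intro n hn t ht1 htn
      obtain ⟨P, h2, h3, h4, h5, h6, h7, h8⟩ := hsc n hn t ht1 htn
      refine ⟨P, dual P, ⟨h2, h3, h4, h5⟩,
        ⟨dual_property h2, dual_upper h3, dual_nonempty h5, dual_ne_univ h4⟩, ?_, h6, ?_, ?_⟩
      · rw [crit_dual h3 h4 h5 (by norm_num : (0:ℝ) < 1 / 2) (by norm_num)]
        norm_num
      · refine h7.trans ?_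
        apply mul_le_mul_of_nonneg_right _ (by linarith only [ht1])
        linarith only [hC1, hC2]
      · intro ε h0 h1
        refine ⟨width_dual h3 h4 h5 h0 h1, ?_⟩
        have := h8 ε h0 h1
        rw [mul_assoc]
        exact this

end Vale.Agent.Results.P063.SparseWidth
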