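import Vale.Agent.P063.H291.Lower

/-!
# P063: the Friedgut–Kalai threshold-width conjecture, with a sharp inequality for the total
influence of all (not necessarily monotone) hypergraph properties at all densities, and with the
exact order of the width jointly in `n` and `ε`, for all `0 < ε < 1/2`
-/

set_option autoImplicit false

namespace Vale.Agent.Results.P063.UniformWidth

open Vale.Agent.P063

theorem result : ∀ r : ℕ, 2 ≤ r → ∃ c C : ℝ, 0 < c ∧ 0 < C ∧
    -- (1) total influence of every property, monotone or not, for every density `p`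
    (∀ n : ℕ, r ≤ n → ∀ P : Set (Edge n r → Bool), IsProperty P → ∀ p : ℝ, 0 < p → p < 1 →
      Real.log n ^ ((r : ℝ) / ((r : ℝ) - 1)) * (mu p P * (1 - mu p P)) ≤ C * totalInfl p P) ∧
    -- (2) the width, with one constant for all `ε`
    (∀ n : ℕ, r ≤ n → ∀ P : Set (Edge n r → Bool),
      IsProperty P → IsUpperSet P → P.Nonempty → P ≠ Set.univ → ∀ ε : ℝ, 0 < ε → ε < 1 / 2 →
        width ε P ≤ C * min 1 (Real.log ((1 - ε) / ε) *
          Real.log n ^ (-((r : ℝ) / ((r : ℝ) - 1))))) ∧
    -- (3) all pairs of levels `a ≤ b`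
    (∀ n : ℕ, r ≤ n → ∀ P : Set (Edge n r → Bool),
      IsProperty P → IsUpperSet P → P.Nonempty → P ≠ Set.univ → ∀ a b : ℝ, 0 < a → a ≤ b → b < 1 →
        critProb b P - critProb a P ≤
          C * (Real.log (b / (1 - b)) - Real.log (a / (1 - a))) *
            Real.log n ^ (-((r : ℝ) / ((r : ℝ) - 1)))) ∧
    -- (4) optimality of (2) for all `ε`: the order of the maximal width is the one in (2)
    (∃ n0 : ℕ, ∀ n : ℕ, n0 ≤ n → ∀ ε : ℝ, 0 < ε → ε < 1 / 2 →
      ∃ P : Set (Edge n r → Bool), IsProperty P ∧ IsUpperSet P ∧ P.Nonempty ∧ P ≠ Set.univ ∧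
        c * min 1 (Real.log ((1 - ε) / ε) * Real.log n ^ (-((r : ℝ) / ((r : ℝ) - 1))))
          ≤ width ε P) := by
  intro r hr
  obtain ⟨C, hC, hinf⟩ := H291.infl_all hr
  obtain ⟨c, hc, n0, hlow⟩ := H291.lower_all hr
  have hup : ∀ n : ℕ, r ≤ n → ∀ P : Set (Edge n r → Bool),
      IsProperty P → IsUpperSet P → P.Nonempty → ∀ a b : ℝ, 0 < a → a ≤ b → b < 1 →
        critProb b P - critProb a P ≤
          C * (Real.log (b / (1 - b)) - Real.log (a / (1 - a))) *
            Real.log n ^ (-((r : ℝ) / ((r : ℝ) - 1))) :=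
    fun n hrn P h1 h2 h3 a b ha hab hb =>
      H291.crit_upper hr hC hrn h2 h3 (hinf n hrn P h1) ha hab hb
  have hnn : ∀ n : ℕ, r ≤ n → 0 ≤ Real.log n ^ (-((r : ℝ) / ((r : ℝ) - 1))) := fun n _ =>
    Real.rpow_nonneg (Real.log_natCast_nonneg n) _
  refine ⟨c, 1 + 2 * C, hc, by linarith only [hC], ?_, ?_, ?_, n0, hlow⟩
  · intro n hrn P hP p h0 h1
    have h2 := hinf n hrn P hP p h0 h1
    have h4 := H291.totalInfl_nonneg h0.le h1.le P
    have h3 : 0 ≤ C * totalInfl p P := mul_nonneg hC.le h4
    linarith only [h2, h3, h4]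
  · intro n hrn P h1 h2 h3 _ ε he0 he1
    have h5 := hup n hrn P h1 h2 h3 ε (1 - ε) he0 (by linarith only [he1]) (by linarith only [he0])
    rw [H291.logit_two he0 he1] at h5
    have hw := width_le_one h2 h3 he0 he1
    have hlog : 0 < Real.log ((1 - ε) / ε) := by
      apply Real.log_pos
      rw [lt_div_iff₀ he0]
      linarith only [he1]
    set X : ℝ := Real.log ((1 - ε) / ε) * Real.log n ^ (-((r : ℝ) / ((r : ℝ) - 1))) with hX
    have hX0 : 0 ≤ X := mul_nonneg hlog.le (hnn n hrn)
    have h6 : width ε P ≤ 2 * C * X := by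
      calc width ε P ≤ _ := h5
        _ = _ := by rw [hX]; ring
    rcases le_total 1 X with hx | hx
    · rw [min_eq_left hx]
      linarith only [hw, hC]
    · rw [min_eq_right hx]
      linarith only [h6, hX0]
  · intro n hrn P h1 h2 h3 _ a b ha hab hb
    refine (hup n hrn P h1 h2 h3 a b ha hab hb).trans ?_
    refine mul_le_mul_of_nonneg_right ?_ (hnn n hrn)
    have hlog : Real.log (a / (1 - a)) ≤ Real.log (b / (1 - b)) := by
      apply Real.log_le_log (div_pos ha (by linarith only [hab, hb]))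
      rw [div_le_div_iff₀ (by linarith only [hab, hb]) (by linarith only [hb])]
      nlinarith only [hab]
    exact mul_le_mul_of_nonneg_right (by linarith only [hC]) (by linarith only [hlog])

end Vale.Agent.Results.P063.UniformWidth
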